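import Mathlib

/-!
# P260, block A7: quotients of the universal cover by finite index subgroups of the deck group

`exists_quot`: if `p : X → M` is a quotient covering map with deck group `Γ` onto a closed
topological manifold and `X` is connected, then for every subgroup `H` of finite index there are a
closed connected manifold `N` (with a metric) and a quotient covering map `X → N` with deck
group `H`.
-/

namespace Vale.Agent.P260.A7

open Topology Set

section charts

variable {E : Type*} [TopologicalSpace E] {M Y : Type*} [TopologicalSpace M]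
  [TopologicalSpace Y] [ChartedSpace E M]

/-- Charts pulled back by a local homeomorphism. -/
@[implicit_reducible]
noncomputable def pullCharts {r : Y → M} (hr : IsLocalHomeomorph r) : ChartedSpace E Y where
  atlas := range fun y => (hr y).choose.trans (chartAt E ((hr y).choose y))
  chartAt y := (hr y).choose.trans (chartAt E ((hr y).choose y))
  mem_chart_source y := by
    rw [OpenPartialHomeomorph.trans_source]
    exact ⟨(hr y).choose_spec.1, mem_chart_source _ _⟩
  chart_mem_atlas y := ⟨y, rfl⟩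

end charts

section quot

variable {X : Type*} [TopologicalSpace X] {Γ : Type*} [Group Γ] [MulAction Γ X]
  {M : Type*} [TopologicalSpace M] {p : X → M} (hp : IsQuotientCoveringMap p Γ)
  (H : Subgroup Γ)

/-- The quotient `X / H`. -/
abbrev Quo (X : Type*) {Γ : Type*} [Group Γ] [MulAction Γ X] (H : Subgroup Γ) : Type _ :=
  MulAction.orbitRel.Quotient H X

/-- The projection. -/
abbrev prj (X : Type*) {Γ : Type*} [Group Γ] [MulAction Γ X] (H : Subgroup Γ) : X → Quo X H :=
  Quotient.mk (MulAction.orbitRel H X)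

include hp

theorem qcm : IsQuotientCoveringMap (prj X H) H where
  toIsQuotientMap := isQuotientMap_quotient_mk'
  continuous_const_smul h := hp.continuous_const_smul (h : Γ)
  apply_eq_iff_mem_orbit := Quotient.eq''
  disjoint e := by
    obtain ⟨U, hU, hd⟩ := hp.disjoint e
    exact ⟨U, hU, fun g hg => Subtype.ext (hd g hg)⟩

/-- The map `X / H → M`. -/
theorem map_wd {a b : X} (h : (MulAction.orbitRel H X) a b) : p a = p b := by
  obtain ⟨g, hg⟩ := h
  have h1 : (g : Γ) • b = a := hg
  rw [← h1, hp.map_smul]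

/-- The covering `X / H → M`. -/
def down : Quo X H → M := Quotient.lift p fun _ _ h => map_wd hp H h

theorem down_mk (x : X) : down hp H (prj X H x) = p x := rfl

theorem down_comp : down hp H ∘ prj X H = p := rfl

theorem down_localHomeo : IsLocalHomeomorph (down hp H) := by
  have h1 : IsLocalHomeomorph (prj X H) := (qcm hp H).isCoveringMap.isLocalHomeomorph
  have h2 : IsLocalHomeomorph p := hp.isCoveringMap.isLocalHomeomorph
  rw [isLocalHomeomorph_iff_isLocalHomeomorphOn_univ] at h1 h2 ⊢
  have h3 := IsLocalHomeomorphOn.of_comp_right (g := down hp H) (f := prj X H) (s := univ) h2 h1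
  rwa [image_univ, (qcm hp H).surjective.range_eq] at h3

theorem t2_quo [T2Space M] : T2Space (Quo X H) := by
  have hcs : ContinuousConstSMul Γ X := hp.toContinuousConstSMul
  have hq := qcm hp H
  have hop : IsOpenMap (prj X H) := hq.isCoveringMap.isOpenMap
  refine ⟨fun y z hyz => ?_⟩
  obtain ⟨a, rfl⟩ := hq.surjective y
  obtain ⟨b, rfl⟩ := hq.surjective z
  by_cases h : p a = p b
  · obtain ⟨g, hg⟩ := hp.apply_eq_iff_mem_orbit.mp h
    have hga : g • b = a := hg
    obtain ⟨U, hU, hd⟩ := hp.disjoint b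
    have hUi : b ∈ interior U := mem_interior_iff_mem_nhds.mpr hU
    refine ⟨prj X H '' ((fun x => g • x) '' interior U), prj X H '' interior U,
      hop _ ((Homeomorph.smul g).isOpenMap _ isOpen_interior), hop _ isOpen_interior,
      ⟨a, ⟨b, hUi, hga⟩, rfl⟩, ⟨b, hUi, rfl⟩, ?_⟩
    rw [Set.disjoint_left]
    rintro _ ⟨_, ⟨u, hu, rfl⟩, rfl⟩ ⟨v, hv, hvu⟩
    obtain ⟨⟨k, hk⟩, hkv⟩ := hq.apply_eq_iff_mem_orbit.mp hvu
    have hkv' : k • (g • u) = v := hkv
    have h1 : k * g = 1 := by
      refine hd _ ⟨v, ⟨u, interior_subset hu, ?_⟩, interior_subset hv⟩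
      change (k * g) • u = v
      rw [mul_smul, hkv']
    apply hyz
    refine hq.apply_eq_iff_mem_orbit.mpr ⟨⟨g, ?_⟩, hga⟩
    rw [← inv_eq_of_mul_eq_one_right h1]
    exact H.inv_mem hk
  · obtain ⟨A, B, hA, hB, haA, hbB, hAB⟩ := t2_separation h
    have hc : Continuous (down hp H) := (down_localHomeo hp H).continuous
    exact ⟨down hp H ⁻¹' A, down hp H ⁻¹' B, hA.preimage hc, hB.preimage hc, haA, hbB,
      hAB.preimage _⟩

theorem compact_quo [CompactSpace M] [LocallyCompactSpace X] [H.FiniteIndex] :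
    CompactSpace (Quo X H) := by
  have hcs : ContinuousConstSMul Γ X := hp.toContinuousConstSMul
  have hq := qcm hp H
  have hopen : IsOpenMap p := hp.isCoveringMap.isOpenMap
  have h1 : ∀ x : X, ∃ K : Set X, IsCompact K ∧ K ∈ 𝓝 x := fun x => exists_compact_mem_nhds x
  choose K hK hKx using h1
  obtain ⟨t, ht⟩ := isCompact_univ.elim_finite_subcover (fun x => p '' interior (K x))
    (fun x => hopen _ isOpen_interior) (by
      intro m _
      obtain ⟨x, rfl⟩ := hp.surjective m
      exact mem_iUnion.2 ⟨x, x, mem_interior_iff_mem_nhds.2 (hKx x), rfl⟩)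
  have hfin : Finite (Γ ⧸ H) := inferInstance
  have hcomp : IsCompact (⋃ c : Γ ⧸ H, ⋃ x ∈ t, prj X H '' ((fun y => (c.out)⁻¹ • y) '' K x)) := by
    refine isCompact_iUnion fun c => t.isCompact_biUnion fun x _ => ?_
    exact ((hK x).image (continuous_const_smul _)).image hq.continuous
  refine ⟨?_⟩
  convert hcomp
  symm
  refine eq_univ_of_forall fun y => ?_
  obtain ⟨x, rfl⟩ := hq.surjective y
  obtain ⟨y, hy, z, hz, hzx⟩ := mem_iUnion₂.mp (ht (mem_univ (p x)))
  obtain ⟨g, hg⟩ := hp.apply_eq_iff_mem_orbit.mp hzx.symm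
  have hg' : g • z = x := hg
  -- `g⁻¹ = c.out * h`
  obtain ⟨h, hh⟩ := QuotientGroup.mk_out_eq_mul H g⁻¹
  refine mem_iUnion.mpr ⟨(QuotientGroup.mk g⁻¹ : Γ ⧸ H), mem_iUnion₂.mpr ⟨y, hy,
    (((QuotientGroup.mk g⁻¹ : Γ ⧸ H).out)⁻¹ • z), ⟨z, interior_subset hz, rfl⟩, ?_⟩⟩
  refine hq.apply_eq_iff_mem_orbit.mpr ⟨h⁻¹, ?_⟩
  change ((h⁻¹ : H) : Γ) • x = _
  rw [hh, ← hg', ← mul_smul]
  congr 1
  simp

end quot

/-- **Finite covers.** -/
theorem exists_quot {n : ℕ} {M X Γ : Type} [TopologicalSpace M] [T2Space M] [CompactSpace M]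
    [ChartedSpace (EuclideanSpace ℝ (Fin n)) M] [TopologicalSpace X] [ConnectedSpace X]
    [Group Γ] [MulAction Γ X] {p : X → M} (hp : IsQuotientCoveringMap p Γ)
    (H : Subgroup Γ) (hH : H.FiniteIndex) :
    ∃ (N : Type) (_ : MetricSpace N) (_ : CompactSpace N) (_ : ConnectedSpace N)
      (_ : ChartedSpace (EuclideanSpace ℝ (Fin n)) N) (r : X → N),
      IsQuotientCoveringMap r H := by
  have hcX : ChartedSpace (EuclideanSpace ℝ (Fin n)) X :=
    pullCharts hp.isCoveringMap.isLocalHomeomorph
  have hlc : LocallyCompactSpace X :=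
    ChartedSpace.locallyCompactSpace (EuclideanSpace ℝ (Fin n)) X
  have hT2 : T2Space (Quo X H) := t2_quo hp H
  have hK : CompactSpace (Quo X H) := compact_quo hp H
  let hC : ChartedSpace (EuclideanSpace ℝ (Fin n)) (Quo X H) :=
    pullCharts (down_localHomeo hp H)
  have hsc : SecondCountableTopology (Quo X H) :=
    ChartedSpace.secondCountable_of_sigmaCompact (EuclideanSpace ℝ (Fin n)) (Quo X H)
  have hm : TopologicalSpace.MetrizableSpace (Quo X H) := inferInstance
  let hms : MetricSpace (Quo X H) := TopologicalSpace.metrizableSpaceMetric (Quo X H)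
  have hconn : ConnectedSpace (Quo X H) :=
    (qcm hp H).surjective.connectedSpace (qcm hp H).continuous
  exact ⟨Quo X H, hms, hK, hconn, hC, prj X H, qcm hp H⟩

end Vale.Agent.P260.A7
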