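import Vale.Agent.P260.H388.Core

/-!
# P260, block C1: relators

`relators_core`: the kernel of `k[F] → k[G] / I ^ n` is generated, modulo `I ^ n`, by at most
`dim H²(G; k)` elements.  `relators`: the same with `groupCohomology`.
-/

namespace Vale.Agent.P260.C

open MonoidAlgebra Submodule Vale.Agent.P300.GS

section core

variable {k : Type*} [Field k] {G : Type*} [Group G] {α : Type*} [Fintype α]
  {φ : FreeGroup α →* G} {n : ℕ}

/-- Nilpotent Nakayama. -/
theorem KK_le_of_span {ι : Type*} (r : ι → MonoidAlgebra k (FreeGroup α))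
    (h : KK k φ n ≤ span k (Set.range r) ⊔ K0 k φ n) :
    KK k φ n ≤ FoxFil.J k r ⊔ augF k (FreeGroup α) n := by
  have hM : FoxFil.J k r ⊔ augF k (FreeGroup α) n = (foxFil k α).K r n := rfl
  set M := FoxFil.J k r ⊔ augF k (FreeGroup α) n with hMdef
  have hl : ∀ a x, x ∈ M → a * x ∈ M := fun a x hx => by
    rw [hM] at hx ⊢; exact (foxFil k α).K_mul_left a hx
  have hr : ∀ a x, x ∈ M → x * a ∈ M := fun a x hx => by
    rw [hM] at hx ⊢; exact (foxFil k α).K_mul_right a hx
  have key : ∀ m, KK k φ n ≤ M ⊔ (KK k φ n ⊓ augF k (FreeGroup α) m) := by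
    intro m
    induction m with
    | zero => rw [augF_zero, inf_top_eq]; exact le_sup_right
    | succ m ih =>
      refine h.trans (sup_le ?_ (sup_le (sup_le ?_ ?_) ?_))
      · refine span_le.mpr ?_
        rintro _ ⟨i, rfl⟩
        exact mem_sup_left (mem_sup_left (FoxFil.gen_mem i))
      · refine span_le.mpr ?_
        rintro _ ⟨a, ha, x, hx, rfl⟩
        obtain ⟨u, hu, w, hw, rfl⟩ := mem_sup.mp (ih hx)
        rw [mul_add]
        refine add_mem (mem_sup_left (hl a u hu)) (mem_sup_right ⟨KK_mul_left a hw.1, ?_⟩)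
        rw [add_comm m 1]
        exact augF_mul ha hw.2
      · refine span_le.mpr ?_
        rintro _ ⟨a, ha, x, hx, rfl⟩
        obtain ⟨u, hu, w, hw, rfl⟩ := mem_sup.mp (ih hx)
        rw [add_mul]
        exact add_mem (mem_sup_left (hr a u hu))
          (mem_sup_right ⟨KK_mul_right a hw.1, augF_mul hw.2 ha⟩)
      · exact le_sup_of_le_left le_sup_right
  refine (key n).trans (sup_le le_rfl ?_)
  exact inf_le_right.trans le_sup_right

/-- **Relators**, elementary form. -/
theorem relators_core (hn : 2 ≤ n)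
    (hsurj : ∀ y : MonoidAlgebra k G, ∃ x : MonoidAlgebra k (FreeGroup α),
      Ph k φ x - y ∈ augF k G n)
    (hinj : ∀ x : MonoidAlgebra k (FreeGroup α), Ph k φ x ∈ augF k G 2 →
      x ∈ augF k (FreeGroup α) 2) (m : ℕ)
    (hm : ∀ (p : ℕ) (c : Fin p → G → G → k),
      (∀ i g h l, c i h l + c i g (h * l) = c i (g * h) l + c i g h) →
      (∀ a : Fin p → k, (∃ b : G → k, ∀ g h, ∑ i, a i * c i g h = b g + b h - b (g * h)) →
        a = 0) → p ≤ m) :
    ∃ r : Fin m → MonoidAlgebra k (FreeGroup α), (∀ i, Ph k φ (r i) ∈ augF k G n) ∧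
      (∀ i, r i ∈ augF k (FreeGroup α) 2) ∧
      ∀ x, Ph k φ x ∈ augF k G n → x ∈ FoxFil.J k r ⊔ augF k (FreeGroup α) n := by
  classical
  have hn1 : 1 ≤ n := by omega
  have hK : ∀ x ∈ KK k φ n, x ∈ augF k (FreeGroup α) 2 := fun x hx =>
    hinj x (augF_anti hn hx)
  have hfin : FiniteDimensional k (MonoidAlgebra k (FreeGroup α) ⧸ K0 k φ n) := by
    have h1 : FiniteDimensional k (MonoidAlgebra k (FreeGroup α) ⧸ (foxFil k α).I n) :=
      (foxFil k α).finite_quot_I n
    refine Module.Finite.of_surjective (mapQ ((foxFil k α).I n) (K0 k φ n) LinearMap.id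
      (by rw [comap_id]; exact augF_le_K0)) fun y => ?_
    obtain ⟨x, rfl⟩ := (K0 k φ n).mkQ_surjective y
    exact ⟨((foxFil k α).I n).mkQ x, rfl⟩
  let U : Submodule k (MonoidAlgebra k (FreeGroup α) ⧸ K0 k φ n) :=
    (KK k φ n).map (K0 k φ n).mkQ
  let B := Module.finBasis k U
  have h1 : ∀ i, ∃ x ∈ KK k φ n, (K0 k φ n).mkQ x = (B i : _ ⧸ K0 k φ n) := fun i =>
    mem_map.mp (B i).2
  choose r0 hr0 hr0B using h1
  have h2 : ∀ i, ∃ g : (MonoidAlgebra k (FreeGroup α) ⧸ K0 k φ n) →ₗ[k] k,
      g ∘ₗ U.subtype = B.coord i := fun i => LinearMap.exists_extend (B.coord i)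
  choose g hg using h2
  choose s hs using fun y : G => hsurj (of k G y)
  have hgr : ∀ i j, g i ((K0 k φ n).mkQ (r0 j)) = if j = i then 1 else 0 := by
    intro i j
    rw [hr0B j]
    have h3 : g i ((B j : U) : _ ⧸ K0 k φ n) = (g i ∘ₗ U.subtype) (B j) := rfl
    rw [h3, hg, Module.Basis.coord_apply, Module.Basis.repr_self, Finsupp.single_apply]
  let f : Fin (Module.finrank k U) → MonoidAlgebra k (FreeGroup α) →ₗ[k] k :=
    fun i => g i ∘ₗ (K0 k φ n).mkQ
  have hf : ∀ i, ∀ x ∈ K0 k φ n, f i x = 0 := fun i x hx => by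
    simp only [f, LinearMap.comp_apply]
    rw [mkQ_apply, (Submodule.Quotient.mk_eq_zero _).mpr hx, map_zero]
  have hp : Module.finrank k U ≤ m := by
    refine hm _ (fun i x y => f i (s x * s y - s (x * y))) (fun i x y z => ?_) ?_
    · exact coc (f i) (hf i) s hn1 hs x y z
    · rintro a ⟨b, hb⟩
      let F : MonoidAlgebra k (FreeGroup α) →ₗ[k] k := ∑ i, a i • f i
      have hFa : ∀ x, F x = ∑ i, a i * f i x := fun x => by
        simp [F, LinearMap.sum_apply, LinearMap.smul_apply]
      have hF : ∀ x ∈ K0 k φ n, F x = 0 := fun x hx => by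
        rw [hFa]
        exact Finset.sum_eq_zero fun i _ => by rw [hf i x hx, mul_zero]
      have h3 := core F hF s hn hs hK b fun x y => by
        rw [hFa]; exact hb x y
      funext j
      have h4 := h3 (r0 j) (hr0 j)
      rw [hFa] at h4
      have h5 : ∀ i, f i (r0 j) = if j = i then 1 else 0 := fun i => hgr i j
      simp only [h5, mul_ite, mul_one, mul_zero, Finset.sum_ite_eq, Finset.mem_univ,
        if_true] at h4
      exact h4
  let r : Fin m → MonoidAlgebra k (FreeGroup α) := fun i =>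
    if h : (i : ℕ) < Module.finrank k U then r0 ⟨i, h⟩ else 0
  have hr : ∀ i, r i ∈ KK k φ n := fun i => by
    simp only [r]
    split_ifs with h
    · exact hr0 _
    · exact zero_mem _
  refine ⟨r, hr, fun i => hK _ (hr i), fun x hx => ?_⟩
  refine KK_le_of_span (φ := φ) r (fun y hy => ?_) hx
  -- spanning
  have h6 : (K0 k φ n).mkQ y ∈ U := mem_map_of_mem hy
  have h7 := congrArg Subtype.val (B.sum_repr ⟨_, h6⟩)
  rw [AddSubmonoidClass.coe_finsetSum] at h7
  simp only [SetLike.val_smul] at h7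
  set e := B.repr ⟨_, h6⟩ with he
  have h8 : (K0 k φ n).mkQ (∑ i, e i • r0 i) = (K0 k φ n).mkQ y := by
    rw [map_sum, ← h7]
    exact Finset.sum_congr rfl fun i _ => by rw [map_smul, hr0B]
  rw [mkQ_apply, mkQ_apply, Submodule.Quotient.eq] at h8
  have h9 : y = ∑ i, e i • r0 i + (y - ∑ i, e i • r0 i) := by abel
  rw [h9]
  refine add_mem (mem_sup_left (sum_mem fun i _ => smul_mem _ _ (subset_span ?_)))
    (mem_sup_right ?_)
  · refine ⟨⟨i, i.2.trans_le hp⟩, ?_⟩
    simp only [r]
    rw [dif_pos i.2]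
  · rw [← neg_mem_iff, neg_sub]
    exact h8

end core

section coh

universe u

variable {k G : Type u} [Field k] [Group G]

/-- Linearly independent cohomology classes. -/
theorem card_le_finrank_H2 [FiniteDimensional k (groupCohomology (Rep.trivial k G k) 2)]
    (p : ℕ) (c : Fin p → G → G → k)
    (hc : ∀ i g h l, c i h l + c i g (h * l) = c i (g * h) l + c i g h)
    (ha : ∀ a : Fin p → k, (∃ b : G → k, ∀ g h, ∑ i, a i * c i g h = b g + b h - b (g * h)) →
      a = 0) : p ≤ Module.finrank k (groupCohomology (Rep.trivial k G k) 2) := by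
  let C : Fin p → groupCohomology.cocycles₂ (Rep.trivial k G k) := fun i =>
    ⟨fun x => c i x.1 x.2, by
      rw [groupCohomology.mem_cocycles₂_iff]
      intro g h j
      exact (hc i g h j).symm⟩
  have hli : LinearIndependent k fun i =>
      (groupCohomology.H2π (Rep.trivial k G k)).hom (C i) := by
    rw [Fintype.linearIndependent_iff]
    intro a h0 i
    have h1 : (groupCohomology.H2π (Rep.trivial k G k)).hom (∑ i, a i • C i) = 0 := by
      rw [map_sum, ← h0]
      exact Finset.sum_congr rfl fun i _ => by rw [map_smul]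
    have h2 := (groupCohomology.H2π_eq_zero_iff _).mp h1
    obtain ⟨b, hb⟩ := h2
    have h3 : a = 0 := ha a ⟨b, fun g h => ?_⟩
    · rw [h3]; rfl
    have h4 := congrFun hb (g, h)
    rw [groupCohomology.d₁₂_hom_apply] at h4
    have h5 : (∑ i, a i • C i : groupCohomology.cocycles₂ (Rep.trivial k G k)) (g, h) =
        ∑ i, a i * c i g h := by
      rw [← groupCohomology.cocycles₂.val_eq_coe, AddSubmonoidClass.coe_finsetSum,
        Finset.sum_apply]
      rfl
    have h6 : (∑ i, a i • C i : groupCohomology.cocycles₂ (Rep.trivial k G k)) (g, h) =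
        b h - b (g * h) + b g := h4.symm
    rw [← h5, h6]
    ring
  have h := hli.fintype_card_le_finrank
  rwa [Fintype.card_fin] at h

/-- **Relators.** -/
theorem relators {α : Type*} [Fintype α] (φ : FreeGroup α →* G) (n : ℕ) (hn : 2 ≤ n)
    (hsurj : ∀ y : MonoidAlgebra k G, ∃ x : MonoidAlgebra k (FreeGroup α),
      mapDomainAlgHom k k φ x - y ∈ augF k G n)
    (hinj : ∀ x : MonoidAlgebra k (FreeGroup α), mapDomainAlgHom k k φ x ∈ augF k G 2 →
      x ∈ augF k (FreeGroup α) 2)
    [FiniteDimensional k (groupCohomology (Rep.trivial k G k) 2)] :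
    ∃ r : Fin (Module.finrank k (groupCohomology (Rep.trivial k G k) 2)) →
      MonoidAlgebra k (FreeGroup α),
      (∀ i, mapDomainAlgHom k k φ (r i) ∈ augF k G n) ∧
      (∀ i, r i ∈ augF k (FreeGroup α) 2) ∧
      ∀ x, mapDomainAlgHom k k φ x ∈ augF k G n →
        x ∈ FoxFil.J k r ⊔ augF k (FreeGroup α) n :=
  relators_core (φ := φ) hn hsurj hinj _ fun p c hc ha => card_le_finrank_H2 p c hc ha

end coh

end Vale.Agent.P260.C
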