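import Vale.Agent.P300.H863.Fox

/-!
# P260, block C1, core: relators and two-cocycles

`φ : FreeGroup α →* G`, `Φ : k[F] → k[G]`, `K = {x | Φ x ∈ I_G ^ n}`.  A linear form `f` on `k[F]`
vanishing on `I K`, `K I` and `I ^ n` gives the two-cocycle `f (s g * s h - s (g h))`; if it is a
coboundary then `f` vanishes on `K`.
-/

namespace Vale.Agent.P260.C

open MonoidAlgebra Submodule Vale.Agent.P300.GS

variable {k : Type*} [Field k] {G : Type*} [Group G] {α : Type*}

section

variable (k) (φ : FreeGroup α →* G)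

/-- The induced map of group algebras. -/
noncomputable def Ph : MonoidAlgebra k (FreeGroup α) →ₐ[k] MonoidAlgebra k G :=
  mapDomainAlgHom k k φ

/-- The relation module modulo `I ^ n`. -/
noncomputable def KK (n : ℕ) : Submodule k (MonoidAlgebra k (FreeGroup α)) :=
  (augF k G n).comap (Ph k φ).toLinearMap

/-- `I K + K I + I ^ n`. -/
noncomputable def K0 (n : ℕ) : Submodule k (MonoidAlgebra k (FreeGroup α)) :=
  span k {z | ∃ a ∈ augF k (FreeGroup α) 1, ∃ x ∈ KK k φ n, z = a * x} ⊔
    span k {z | ∃ a ∈ augF k (FreeGroup α) 1, ∃ x ∈ KK k φ n, z = x * a} ⊔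
      augF k (FreeGroup α) n

end

variable {φ : FreeGroup α →* G} {n : ℕ}

theorem mem_KK {x : MonoidAlgebra k (FreeGroup α)} : x ∈ KK k φ n ↔ Ph k φ x ∈ augF k G n :=
  Iff.rfl

theorem Ph_of (g : FreeGroup α) : Ph k φ (of k _ g) = of k G (φ g) := by
  simp [Ph]

theorem aug_Ph (x : MonoidAlgebra k (FreeGroup α)) : aug k G (Ph k φ x) = aug k _ x := by
  induction x using MonoidAlgebra.induction_on with
  | of g => rw [Ph_of, aug_of, aug_of]
  | add x y hx hy => rw [map_add, map_add, map_add, hx, hy]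
  | smul c x hx => rw [map_smul, map_smul, map_smul, hx]

theorem augF_le_KK (n : ℕ) : augF k (FreeGroup α) n ≤ KK k φ n := fun _ hx => map_augF φ hx

theorem KK_mul_left (a : MonoidAlgebra k (FreeGroup α)) {x : MonoidAlgebra k (FreeGroup α)}
    (hx : x ∈ KK k φ n) : a * x ∈ KK k φ n := by
  rw [mem_KK, map_mul]
  exact augF_mul_left _ hx

theorem KK_mul_right (a : MonoidAlgebra k (FreeGroup α)) {x : MonoidAlgebra k (FreeGroup α)}
    (hx : x ∈ KK k φ n) : x * a ∈ KK k φ n := by
  rw [mem_KK, map_mul]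
  exact augF_mul_right _ hx

theorem aug_of_mem_KK (hn : 1 ≤ n) {x : MonoidAlgebra k (FreeGroup α)} (hx : x ∈ KK k φ n) :
    x ∈ augF k (FreeGroup α) 1 := by
  have h : Ph k φ x ∈ augF k G 1 := augF_anti hn hx
  rw [mem_augF_one, aug_Ph] at h
  rwa [mem_augF_one]

theorem K0_left {a x : MonoidAlgebra k (FreeGroup α)} (ha : a ∈ augF k (FreeGroup α) 1)
    (hx : x ∈ KK k φ n) : a * x ∈ K0 k φ n :=
  mem_sup_left (mem_sup_left (subset_span ⟨a, ha, x, hx, rfl⟩))

theorem K0_right {a x : MonoidAlgebra k (FreeGroup α)} (ha : a ∈ augF k (FreeGroup α) 1)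
    (hx : x ∈ KK k φ n) : x * a ∈ K0 k φ n :=
  mem_sup_left (mem_sup_right (subset_span ⟨a, ha, x, hx, rfl⟩))

theorem augF_le_K0 : augF k (FreeGroup α) n ≤ K0 k φ n := le_sup_right

theorem K0_le_KK : K0 k φ n ≤ KK k φ n := by
  refine sup_le (sup_le ?_ ?_) (augF_le_KK n)
  · refine span_le.mpr ?_
    rintro _ ⟨a, -, x, hx, rfl⟩
    exact KK_mul_left a hx
  · refine span_le.mpr ?_
    rintro _ ⟨a, -, x, hx, rfl⟩
    exact KK_mul_right a hx

/-- Decomposition `a = aug a + (a - aug a)`. -/
theorem sub_aug_mem (a : MonoidAlgebra k G) : a - algebraMap k _ (aug k G a) ∈ augF k G 1 := by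
  rw [mem_augF_one, map_sub, AlgHom.commutes, Algebra.algebraMap_self_apply, sub_self]

section coc

variable (f : MonoidAlgebra k (FreeGroup α) →ₗ[k] k) (hf : ∀ x ∈ K0 k φ n, f x = 0)

include hf

theorem f_mul_left (a : MonoidAlgebra k (FreeGroup α)) {x : MonoidAlgebra k (FreeGroup α)}
    (hx : x ∈ KK k φ n) : f (a * x) = aug k _ a * f x := by
  have h1 : a * x = aug k _ a • x + (a - algebraMap k _ (aug k _ a)) * x := by
    rw [sub_mul, Algebra.smul_def]; abel
  rw [h1, map_add, hf _ (K0_left (sub_aug_mem a) hx), add_zero, map_smul, smul_eq_mul]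

theorem f_mul_right (a : MonoidAlgebra k (FreeGroup α)) {x : MonoidAlgebra k (FreeGroup α)}
    (hx : x ∈ KK k φ n) : f (x * a) = aug k _ a * f x := by
  have h1 : x * a = aug k _ a • x + x * (a - algebraMap k _ (aug k _ a)) := by
    rw [mul_sub, ← Algebra.commutes, Algebra.smul_def]; abel
  rw [h1, map_add, hf _ (K0_right (sub_aug_mem a) hx), add_zero, map_smul, smul_eq_mul]

variable (s : G → MonoidAlgebra k (FreeGroup α))

omit hf in
theorem s_mul_mem (hs : ∀ g, Ph k φ (s g) - of k G g ∈ augF k G n) (g h : G) :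
    s g * s h - s (g * h) ∈ KK k φ n := by
  rw [mem_KK, map_sub, map_mul]
  have h1 : Ph k φ (s g) * Ph k φ (s h) - Ph k φ (s (g * h)) =
      (Ph k φ (s g) - of k G g) * Ph k φ (s h) + of k G g * (Ph k φ (s h) - of k G h) -
        (Ph k φ (s (g * h)) - of k G (g * h)) := by
    rw [map_mul (of k G)]; noncomm_ring
  rw [h1]
  exact sub_mem (add_mem (augF_mul_right _ (hs g)) (augF_mul_left _ (hs h))) (hs _)

omit hf in
theorem aug_s (hn : 1 ≤ n) (hs : ∀ g, Ph k φ (s g) - of k G g ∈ augF k G n) (g : G) :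
    aug k _ (s g) = 1 := by
  have h1 := augF_anti hn (hs g)
  rw [mem_augF_one, map_sub, aug_Ph, aug_of, sub_eq_zero] at h1
  exact h1

/-- The cocycle identity. -/
theorem coc (hn : 1 ≤ n) (hs : ∀ g, Ph k φ (s g) - of k G g ∈ augF k G n) (g h l : G) :
    f (s h * s l - s (h * l)) + f (s g * s (h * l) - s (g * (h * l))) =
      f (s (g * h) * s l - s (g * h * l)) + f (s g * s h - s (g * h)) := by
  have h1 := f_mul_left f hf (s g) (s_mul_mem s hs h l)
  have h2 := f_mul_right f hf (s l) (s_mul_mem s hs g h)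
  rw [aug_s s hn hs, one_mul] at h1 h2
  rw [← h1, ← h2, ← map_add, ← map_add, mul_assoc g h l]
  congr 1
  noncomm_ring

/-- **The key lemma**: if the cocycle is a coboundary then `f` vanishes on `K`. -/
theorem core (hn : 2 ≤ n) (hs : ∀ g, Ph k φ (s g) - of k G g ∈ augF k G n)
    (hK : ∀ x ∈ KK k φ n, x ∈ augF k (FreeGroup α) 2) (b : G → k)
    (hb : ∀ g h, f (s g * s h - s (g * h)) = b g + b h - b (g * h)) :
    ∀ x ∈ KK k φ n, f x = 0 := by
  by_contra hcon
  push Not at hcon
  obtain ⟨e0, he0, hfe0⟩ := hcon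
  have hn1 : 1 ≤ n := by omega
  -- normalise
  obtain ⟨e, he, hfe⟩ : ∃ e ∈ KK k φ n, f e = 1 :=
    ⟨(f e0)⁻¹ • e0, smul_mem _ _ he0, by rw [map_smul, smul_eq_mul, inv_mul_cancel₀ hfe0]⟩
  have heI := aug_of_mem_KK hn1 he
  -- the two-sided ideal P
  let P : Submodule k (MonoidAlgebra k (FreeGroup α)) := KK k φ n ⊓ LinearMap.ker f
  have hPl : ∀ a x, x ∈ P → a * x ∈ P := fun a x hx => by
    refine ⟨KK_mul_left a hx.1, ?_⟩
    show f _ = 0
    rw [f_mul_left f hf a hx.1, LinearMap.mem_ker.mp hx.2, mul_zero]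
  have hPr : ∀ a x, x ∈ P → x * a ∈ P := fun a x hx => by
    refine ⟨KK_mul_right a hx.1, ?_⟩
    show f _ = 0
    rw [f_mul_right f hf a hx.1, LinearMap.mem_ker.mp hx.2, mul_zero]
  have hP0 : ∀ x, x ∈ K0 k φ n → x ∈ P := fun x hx => ⟨K0_le_KK hx, hf x hx⟩
  -- the section
  let t : G → MonoidAlgebra k (FreeGroup α) := fun g => s g - b g • e
  let σ : MonoidAlgebra k G →ₗ[k] MonoidAlgebra k (FreeGroup α) :=
    (MonoidAlgebra.basis G k).constr k t
  have hσ : ∀ g, σ (of k G g) = t g := by
    intro g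
    have h : of k G g = MonoidAlgebra.basis G k g := by
      rw [MonoidAlgebra.basis_apply]; rfl
    rw [h]
    exact Module.Basis.constr_basis _ _ _ _
  have ht : ∀ g, aug k _ (t g) = 1 := fun g => by
    simp only [t]
    rw [map_sub, map_smul, aug_s s hn1 hs, mem_augF_one.mp heI, smul_zero, sub_zero]
  have htm : ∀ g h, t g * t h - t (g * h) ∈ P := by
    intro g h
    have h1 : t g * t h - t (g * h) = (s g * s h - s (g * h)) - b h • (s g * e) - b g • (e * s h) +
        (b g * b h) • (e * e) + b (g * h) • e := by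
      simp only [t]
      rw [sub_mul, mul_sub, mul_sub, smul_mul_smul_comm, smul_mul_assoc, mul_smul_comm]
      abel
    rw [h1]
    constructor
    · refine add_mem (add_mem (sub_mem (sub_mem (s_mul_mem s hs g h) ?_) ?_) ?_) ?_
      · exact smul_mem _ _ (KK_mul_left _ he)
      · exact smul_mem _ _ (KK_mul_right _ he)
      · exact smul_mem _ _ (KK_mul_left _ he)
      · exact smul_mem _ _ he
    · show f _ = 0
      have h2 := hb g h
      rw [map_sub] at h2
      simp only [map_add, map_sub, map_smul, smul_eq_mul]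
      rw [h2, f_mul_left f hf _ he, f_mul_right f hf _ he, f_mul_left f hf _ he,
        aug_s s hn1 hs, aug_s s hn1 hs, mem_augF_one.mp heI, hfe]
      ring
  -- multiplicativity modulo P
  have hσm : ∀ x y, σ x * σ y - σ (x * y) ∈ P := by
    intro x y
    induction x using MonoidAlgebra.induction_on with
    | of g =>
      induction y using MonoidAlgebra.induction_on with
      | of h => rw [← map_mul (of k G), hσ, hσ, hσ]; exact htm g h
      | add x y hx hy =>
        have : σ (of k G g) * σ (x + y) - σ (of k G g * (x + y)) =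
            (σ (of k G g) * σ x - σ (of k G g * x)) + (σ (of k G g) * σ y - σ (of k G g * y)) := by
          rw [map_add, mul_add, mul_add, map_add]; abel
        rw [this]; exact add_mem hx hy
      | smul c x hx =>
        have : σ (of k G g) * σ (c • x) - σ (of k G g * (c • x)) =
            c • (σ (of k G g) * σ x - σ (of k G g * x)) := by
          rw [map_smul, mul_smul_comm, mul_smul_comm, map_smul, smul_sub]
        rw [this]; exact smul_mem _ _ hx
    | add u v hu hv =>
      have : σ (u + v) * σ y - σ ((u + v) * y) = (σ u * σ y - σ (u * y)) +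
          (σ v * σ y - σ (v * y)) := by
        rw [map_add, add_mul, add_mul, map_add]; abel
      rw [this]; exact add_mem hu hv
    | smul c x hx =>
      have : σ (c • x) * σ y - σ ((c • x) * y) = c • (σ x * σ y - σ (x * y)) := by
        rw [map_smul, smul_mul_assoc, smul_mul_assoc, map_smul, smul_sub]
      rw [this]; exact smul_mem _ _ hx
  -- augmentation
  have hσa : ∀ x, aug k _ (σ x) = aug k _ x := by
    intro x
    induction x using MonoidAlgebra.induction_on with
    | of g => rw [hσ, ht, aug_of]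
    | add x y hx hy => rw [map_add, map_add, map_add, hx, hy]
    | smul c x hx => rw [map_smul, map_smul, map_smul, hx]
  -- Φ ∘ σ = id modulo I_G^n
  have hΦσ : ∀ x, Ph k φ (σ x) - x ∈ augF k G n := by
    intro x
    induction x using MonoidAlgebra.induction_on with
    | of g =>
      rw [hσ]
      simp only [t]
      have h1 : Ph k φ (s g - b g • e) - of k G g = (Ph k φ (s g) - of k G g) - b g • Ph k φ e := by
        rw [map_sub, map_smul]; abel
      rw [h1]
      exact sub_mem (hs g) (smul_mem _ _ he)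
    | add x y hx hy =>
      have : Ph k φ (σ (x + y)) - (x + y) = (Ph k φ (σ x) - x) + (Ph k φ (σ y) - y) := by
        rw [map_add, map_add]; abel
      rw [this]; exact add_mem hx hy
    | smul c x hx =>
      have : Ph k φ (σ (c • x)) - c • x = c • (Ph k φ (σ x) - x) := by
        rw [map_smul, map_smul, smul_sub]
      rw [this]; exact smul_mem _ _ hx
  -- σ maps I_G^m into I_F^m + P
  have hσI : ∀ m, ∀ x ∈ augF k G m, σ x ∈ augF k (FreeGroup α) m ⊔ P := by
    intro m
    induction m with
    | zero => intro x _; rw [augF_zero]; exact mem_sup_left trivial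
    | succ m ih =>
      intro x hx
      rw [mem_augF, Submodule.pow_succ] at hx
      refine Submodule.mul_induction_on (C := fun r => σ r ∈ augF k (FreeGroup α) (m + 1) ⊔ P)
        hx (fun a ha c hc => ?_) fun x y hx hy => ?_
      · have h1 : σ (a * c) = σ a * σ c - (σ a * σ c - σ (a * c)) := by abel
        rw [h1]
        refine sub_mem ?_ (mem_sup_right (hσm a c))
        obtain ⟨u, hu, p, hp, hup⟩ := mem_sup.mp (ih a ha)
        rw [← hup, add_mul]
        refine add_mem (mem_sup_left (augF_mul hu ?_)) (mem_sup_right (hPr _ _ hp))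
        rw [mem_augF_one, hσa]
        exact hc
      · rw [map_add]
        exact add_mem hx hy
  have hInP : augF k (FreeGroup α) n ≤ P := fun x hx => hP0 x (augF_le_K0 hx)
  have hσn : ∀ x ∈ augF k G n, σ x ∈ P := fun x hx => by
    have := hσI n x hx
    rwa [sup_eq_right.mpr hInP] at this
  -- every element is `σ (Φ x) + c e` modulo P
  have hdec : ∀ x, ∃ c : k, x - σ (Ph k φ x) - c • e ∈ P := by
    intro x
    have h1 : x - σ (Ph k φ x) ∈ KK k φ n := by
      rw [mem_KK, map_sub, ← neg_mem_iff, neg_sub]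
      exact hΦσ _
    refine ⟨f (x - σ (Ph k φ x)), sub_mem h1 (smul_mem _ _ he), ?_⟩
    show f _ = 0
    rw [map_sub, map_smul, hfe, smul_eq_mul, mul_one, sub_self]
  -- on I_F^2 there is no `e` component
  have hI2 : ∀ x ∈ augF k (FreeGroup α) 2, x - σ (Ph k φ x) ∈ P := by
    intro x hx
    rw [mem_augF, Submodule.pow_succ] at hx
    refine Submodule.mul_induction_on (C := fun r => r - σ (Ph k φ r) ∈ P)
      hx (fun u hu v hv => ?_) fun x y hx hy => ?_
    · replace hu : aug k _ u = 0 := mem_augF_one.mp (mem_augF.mpr hu)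
      obtain ⟨c, hc⟩ := hdec u
      obtain ⟨d, hd⟩ := hdec v
      have hu0 : σ (Ph k φ u) ∈ augF k (FreeGroup α) 1 := by
        rw [mem_augF_one, hσa, aug_Ph]; exact hu
      have hv0 : σ (Ph k φ v) ∈ augF k (FreeGroup α) 1 := by
        rw [mem_augF_one, hσa, aug_Ph]; exact hv
      have h1 : u * v - σ (Ph k φ (u * v)) =
          (u - σ (Ph k φ u) - c • e) * v +
          (σ (Ph k φ u) + c • e) * (v - σ (Ph k φ v) - d • e) +
          d • (σ (Ph k φ u) * e) + c • (e * σ (Ph k φ v)) + (c * d) • (e * e) +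
          (σ (Ph k φ u) * σ (Ph k φ v) - σ (Ph k φ u * Ph k φ v)) := by
        rw [map_mul, sub_mul, sub_mul, mul_sub, mul_sub, add_mul, add_mul, add_mul,
          smul_mul_smul_comm, smul_mul_assoc, smul_mul_assoc, mul_smul_comm]
        abel
      rw [h1]
      refine add_mem (add_mem (add_mem (add_mem (add_mem (hPr _ _ hc) (hPl _ _ hd)) ?_) ?_) ?_)
        (hσm _ _)
      · exact smul_mem _ _ (hP0 _ (K0_left hu0 he))
      · exact smul_mem _ _ (hP0 _ (K0_right hv0 he))
      · exact smul_mem _ _ (hP0 _ (K0_left heI he))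
    · have : x + y - σ (Ph k φ (x + y)) = (x - σ (Ph k φ x)) + (y - σ (Ph k φ y)) := by
        rw [map_add, map_add]; abel
      rw [this]; exact add_mem hx hy
  have h2 : e ∈ P := by
    have h3 : e - σ (Ph k φ e) + σ (Ph k φ e) ∈ P := add_mem (hI2 e (hK e he)) (hσn _ he)
    rwa [sub_add_cancel] at h3
  have h4 := LinearMap.mem_ker.mp h2.2
  rw [hfe] at h4
  exact one_ne_zero h4

end coc

end Vale.Agent.P260.C
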